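import Vale.Agent.P038.H459.Key

/-!
P038: helper294's (G) (note 20944), unweighted: in an arc-minimal counterexample every
set `X` which is not closed has `|N1 X| > |N2 X|`.
-/

namespace Vale.Agent.P038.H459

open Finset

variable {V : Type*} [Fintype V] [DecidableEq V]

/-- Second out-neighbourhood. -/
def N2 (o : V → Finset V) (v : V) : Finset V :=
  univ.filter (fun z => z ≠ v ∧ z ∉ o v ∧ ∃ u ∈ o v, z ∈ o u)

/-- Counterexample. -/
def CE (o : V → Finset V) : Prop := ∀ v, (N2 o v).card < (o v).card

theorem mem_N2 {o : V → Finset V} {v z : V} :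
    z ∈ N2 o v ↔ z ≠ v ∧ z ∉ o v ∧ ∃ u ∈ o v, z ∈ o u := by
  simp [N2]

omit [Fintype V] in
theorem mem_cl' {o : V → Finset V} {S : Finset V} {y : V} :
    y ∈ cl o S ↔ y ∈ S ∨ ∃ x ∈ S, y ∈ o x := by
  simp [cl]

theorem gapG (o : V → Finset V) (hce : CE o)
    (hmin : ∀ o' : V → Finset V, (∀ v, o' v ⊆ o v) →
      (∑ v, (o' v).card < ∑ v, (o v).card) → ¬ CE o')
    (X : Finset V) (hX : cl o X ≠ X) :
    (cl o (cl o X)).card + X.card < 2 * (cl o X).card := by
  set L : Finset V := cl o X \ X with hL
  have hLne : L.Nonempty := by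
    rw [nonempty_iff_ne_empty]
    intro h
    apply hX
    exact Subset.antisymm (sdiff_eq_empty_iff_subset.1 h) (sub_cl o X)
  -- the function d
  let d : Finset V → ℤ := fun T => ((cl o T \ X).card : ℤ) - 2 * (T.card : ℤ)
  -- it is enough to show d L < 0
  have hfin : d L < 0 → (cl o (cl o X)).card + X.card < 2 * (cl o X).card := by
    intro h
    have e1 : cl o X = X ∪ L := by rw [hL, union_sdiff_of_subset (sub_cl o X)]
    have c1 : (cl o X).card = X.card + L.card := by
      rw [e1, card_union_of_disjoint]
      rw [hL]; exact disjoint_sdiff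
    have e2 : cl o (cl o X) ⊆ X ∪ (cl o L \ X) := by
      intro z hz
      rw [mem_union, mem_sdiff]
      by_cases hzX : z ∈ X
      · exact Or.inl hzX
      right
      refine ⟨?_, hzX⟩
      rw [e1, cl_union, mem_union] at hz
      rcases hz with hz | hz
      · apply sub_cl o L
        rw [hL, mem_sdiff]
        exact ⟨hz, hzX⟩
      · exact hz
    have c2 : (cl o (cl o X)).card ≤ X.card + (cl o L \ X).card :=
      (card_le_card e2).trans (card_union_le _ _)
    have h' : ((cl o L \ X).card : ℤ) - 2 * (L.card : ℤ) < 0 := h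
    omega
  apply hfin
  by_contra hcon
  push Not at hcon
  -- choose T
  obtain ⟨T, hT, hTmin⟩ := exists_min_image L.ssubsets d
    ⟨∅, mem_ssubsets.2 (Finset.empty_ssubset.2 hLne)⟩
  rw [mem_ssubsets] at hT
  have hTL : T ⊆ L := hT.subset
  have hTX : ∀ z ∈ T, z ∉ X := fun z hz => (mem_sdiff.1 (hTL hz)).2
  have hd0 : d T ≤ d L := by
    have := hTmin ∅ (mem_ssubsets.2 (Finset.empty_ssubset.2 hLne))
    have h0 : d ∅ = 0 := by simp [d, cl]
    rw [h0] at this
    exact this.trans hcon
  have hkey : ∀ D' : Finset V, D' ⊆ L → Disjoint T D' →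
      2 * D'.card ≤ (cl o D' \ (cl o T ∪ X)).card := by
    intro D' hD' hdis
    have h1 : d T ≤ d (T ∪ D') := by
      by_cases h : T ∪ D' = L
      · rw [h]; exact hd0
      · exact hTmin _ (mem_ssubsets.2
          (Finset.ssubset_iff_subset_ne.2 ⟨union_subset hTL hD', h⟩))
    have h2 : (T ∪ D').card = T.card + D'.card := card_union_of_disjoint hdis
    have h3 : (cl o (T ∪ D') \ X).card ≤ (cl o T \ X).card + (cl o D' \ (cl o T ∪ X)).card := by
      refine (card_le_card ?_).trans (card_union_le _ _)
      intro z hz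
      rw [mem_sdiff, cl_union, mem_union] at hz
      rw [mem_union, mem_sdiff, mem_sdiff, mem_union]
      tauto
    have h1' : ((cl o T \ X).card : ℤ) - 2 * (T.card : ℤ)
        ≤ ((cl o (T ∪ D') \ X).card : ℤ) - 2 * ((T ∪ D').card : ℤ) := h1
    omega
  -- the new digraph
  let o' : V → Finset V := fun y => if y ∈ X then o y ∩ (X ∪ T) else o y
  have ho'sub : ∀ v, o' v ⊆ o v := by
    intro v
    by_cases hv : v ∈ X
    · simp only [o', if_pos hv]; exact inter_subset_left
    · simp only [o', if_neg hv]; exact Subset.refl _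
  refine hmin o' ho'sub ?_ ?_
  · obtain ⟨l, hl, hlT⟩ := exists_of_ssubset hT
    obtain ⟨hl1, hl2⟩ := mem_sdiff.1 hl
    rcases mem_cl'.1 hl1 with h | ⟨x, hx, hxl⟩
    · exact absurd h hl2
    apply sum_lt_sum
    · intro v _
      exact card_le_card (ho'sub v)
    · refine ⟨x, mem_univ _, card_lt_card ?_⟩
      rw [ssubset_iff_of_subset (ho'sub x)]
      refine ⟨l, hxl, ?_⟩
      simp only [o', if_pos hx, mem_inter, mem_union]
      tauto
  · intro v
    by_cases hv : v ∈ X
    · have hov : o' v = o v ∩ (X ∪ T) := by simp only [o', if_pos hv]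
      set D' := o v \ (X ∪ T) with hD'
      set E := cl o D' \ (cl o T ∪ X) with hE
      have hDL : D' ⊆ L := by
        intro z hz
        rw [hD', mem_sdiff, mem_union] at hz
        rw [hL, mem_sdiff]
        refine ⟨mem_cl'.2 (Or.inr ⟨v, hv, hz.1⟩), fun h => hz.2 (Or.inl h)⟩
      have hdis : Disjoint T D' := by
        rw [disjoint_left]
        intro z hz hz'
        rw [hD', mem_sdiff, mem_union] at hz'
        exact hz'.2 (Or.inr hz)
      have hk : 2 * D'.card ≤ E.card := hkey D' hDL hdis
      have hE1 : E ⊆ N2 o v ∪ D' := by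
        intro z hz
        rw [hE, mem_sdiff, mem_union, mem_cl'] at hz
        obtain ⟨hz1, hz2⟩ := hz
        rw [mem_union]
        rcases hz1 with h | ⟨x, hx, hxz⟩
        · exact Or.inr h
        · by_cases hzo : z ∈ o v
          · right
            rw [hD', mem_sdiff, mem_union]
            refine ⟨hzo, ?_⟩
            rintro (h | h)
            · exact hz2 (Or.inr h)
            · exact hz2 (Or.inl (sub_cl o T h))
          · left
            rw [mem_N2]
            refine ⟨?_, hzo, x, (mem_sdiff.1 hx).1, hxz⟩
            rintro rfl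
            exact hz2 (Or.inr hv)
      have hN : N2 o' v ⊆ (N2 o v ∪ D') \ E := by
        intro z hz
        rw [mem_N2, hov] at hz
        obtain ⟨hz1, hz2, u, hu, huz⟩ := hz
        rw [mem_inter, mem_union] at hu
        have huz' : z ∈ o u := ho'sub u huz
        rw [mem_sdiff]
        constructor
        · rw [mem_union]
          by_cases hzo : z ∈ o v
          · right
            rw [hD', mem_sdiff]
            refine ⟨hzo, fun h => hz2 (mem_inter.2 ⟨hzo, h⟩)⟩
          · left
            rw [mem_N2]
            exact ⟨hz1, hzo, u, hu.1, huz'⟩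
        · intro hzE
          rw [hE, mem_sdiff, mem_union] at hzE
          by_cases huX : u ∈ X
          · have : z ∈ o u ∩ (X ∪ T) := by simpa only [o', if_pos huX] using huz
            rcases mem_union.1 (mem_inter.1 this).2 with h | h
            · exact hzE.2 (Or.inr h)
            · exact hzE.2 (Or.inl (sub_cl o T h))
          · rcases hu.2 with h | h
            · exact huX h
            · exact hzE.2 (Or.inl (mem_cl'.2 (Or.inr ⟨u, h, huz'⟩)))
      have c1 : (N2 o' v).card ≤ ((N2 o v ∪ D') \ E).card := card_le_card hN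
      have c2 : ((N2 o v ∪ D') \ E).card + E.card = (N2 o v ∪ D').card :=
        card_sdiff_add_card_eq_card hE1
      have c3 : (N2 o v ∪ D').card ≤ (N2 o v).card + D'.card := card_union_le _ _
      have c4 : (o' v).card + D'.card = (o v).card := by
        rw [hov, hD', add_comm]
        exact card_sdiff_add_card_inter (o v) (X ∪ T)
      have c5 := hce v
      omega
    · have hov : o' v = o v := by simp only [o', if_neg hv]
      have : N2 o' v ⊆ N2 o v := by
        intro z hz
        rw [mem_N2, hov] at hz
        rw [mem_N2]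
        obtain ⟨hz1, hz2, u, hu, huz⟩ := hz
        exact ⟨hz1, hz2, u, hu, ho'sub u huz⟩
      rw [hov]
      exact (card_le_card this).trans_lt (hce v)

end Vale.Agent.P038.H459
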