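import Mathlib

/-!
P038: Key lemma of helper424 (note 22781): a submodular exchange inequality for
row dilation / column erosion.
-/

namespace Vale.Agent.P038.H459

open Finset

variable {V : Type*} [Fintype V] [DecidableEq V]

/-- Closed out-neighbourhood of a set. -/
def cl (o : V → Finset V) (S : Finset V) : Finset V := S ∪ S.biUnion o

/-- Closed in-neighbourhood of a vertex. -/
def inn (o : V → Finset V) (y : V) : Finset V := univ.filter (fun x => x = y ∨ y ∈ o x)

/-- Column erosion of a family of rows. -/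
def er (o : V → Finset V) (S : V → Finset V) (y : V) : Finset V :=
  univ.filter (fun b => ∀ x ∈ inn o y, b ∈ S x)

/-- `|N[Y]| - l |Y|`. -/
def F (o : V → Finset V) (l : ℚ) (Y : Finset V) : ℚ := ((cl o Y).card : ℚ) - l * (Y.card : ℚ)

theorem mem_cl {o : V → Finset V} {S : Finset V} {y : V} :
    y ∈ cl o S ↔ ∃ x ∈ S, x ∈ inn o y := by
  constructor
  · intro h
    rcases mem_union.1 h with h | h
    · exact ⟨y, h, by simp [inn]⟩
    · obtain ⟨x, hx, hy⟩ := mem_biUnion.1 h
      exact ⟨x, hx, by simp [inn, hy]⟩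
  · rintro ⟨x, hx, hxy⟩
    have := (mem_filter.1 hxy).2
    rcases this with rfl | h
    · exact mem_union_left _ hx
    · exact mem_union_right _ (mem_biUnion.2 ⟨x, hx, h⟩)

theorem cl_mono {o : V → Finset V} {S T : Finset V} (h : S ⊆ T) : cl o S ⊆ cl o T := by
  intro y hy
  obtain ⟨x, hx, hxy⟩ := mem_cl.1 hy
  exact mem_cl.2 ⟨x, h hx, hxy⟩

omit [Fintype V] in
theorem sub_cl (o : V → Finset V) (S : Finset V) : S ⊆ cl o S := subset_union_left

theorem cl_union (o : V → Finset V) (S T : Finset V) : cl o (S ∪ T) = cl o S ∪ cl o T := by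
  ext y
  simp only [mem_union, mem_cl]
  constructor
  · rintro ⟨x, hx | hx, hxy⟩
    · exact Or.inl ⟨x, hx, hxy⟩
    · exact Or.inr ⟨x, hx, hxy⟩
  · rintro (⟨x, hx, hxy⟩ | ⟨x, hx, hxy⟩)
    · exact ⟨x, Or.inl hx, hxy⟩
    · exact ⟨x, Or.inr hx, hxy⟩

theorem F_submod (o : V → Finset V) (l : ℚ) (S T : Finset V) :
    F o l (S ∪ T) + F o l (S ∩ T) ≤ F o l S + F o l T := by
  have h1 : ((S ∪ T).card : ℚ) + ((S ∩ T).card : ℚ) = (S.card : ℚ) + (T.card : ℚ) := by
    exact_mod_cast card_union_add_card_inter S T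
  have h2 : ((cl o (S ∪ T)).card : ℚ) + ((cl o (S ∩ T)).card : ℚ)
      ≤ ((cl o S).card : ℚ) + ((cl o T).card : ℚ) := by
    have h3 : (cl o (S ∩ T)) ⊆ cl o S ∩ cl o T :=
      subset_inter (cl_mono inter_subset_left) (cl_mono inter_subset_right)
    have h4 := card_le_card h3
    have h5 := card_union_add_card_inter (cl o S) (cl o T)
    rw [cl_union]
    have : (cl o S ∪ cl o T).card + (cl o (S ∩ T)).card ≤ (cl o S).card + (cl o T).card := by omega
    exact_mod_cast this
  have h6 : l * ((S ∪ T).card : ℚ) + l * ((S ∩ T).card : ℚ) = l * (S.card : ℚ) + l * (T.card : ℚ) := by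
    rw [← mul_add, ← mul_add, h1]
  unfold F
  linarith

theorem mem_er {o : V → Finset V} {S : V → Finset V} {y b : V} :
    b ∈ er o S y ↔ ∀ x ∈ inn o y, b ∈ S x := by
  simp [er]

theorem er_mono {o : V → Finset V} {S T : V → Finset V} (h : ∀ a, S a ⊆ T a) (y : V) :
    er o S y ⊆ er o T y := by
  intro b hb
  rw [mem_er] at hb ⊢
  exact fun x hx => h x (hb x hx)

/-- Intersections stay optimal. -/
theorem F_inter_le (o : V → Finset V) (l : ℚ) (B U : V → Finset V)
    (hR : ∀ a P, B a ⊆ P → P ⊆ U a → F o l (B a) ≤ F o l P)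
    (hBU : ∀ a, B a ⊆ U a) (s : Finset V) (Z : Finset V) (hZ : ∀ x ∈ s, Z ⊆ U x) :
    F o l (Z.filter (fun b => ∀ x ∈ s, b ∈ B x)) ≤ F o l Z := by
  induction s using Finset.induction_on with
  | empty => simp
  | insert x s hx ih =>
    have ih' := ih (fun y hy => hZ y (mem_insert_of_mem hy))
    set W := Z.filter (fun b => ∀ x ∈ s, b ∈ B x) with hW
    have hWU : W ⊆ U x := (filter_subset _ _).trans (hZ x (mem_insert_self _ _))
    have e : Z.filter (fun b => ∀ y ∈ insert x s, b ∈ B y) = W ∩ B x := by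
      ext b
      simp only [mem_filter, mem_insert, forall_eq_or_imp, mem_inter, hW]
      tauto
    rw [e]
    have h1 := F_submod o l W (B x)
    have h2 := hR x (W ∪ B x) subset_union_right (union_subset hWU (hBU x))
    linarith

theorem F_er_le (o : V → Finset V) (l : ℚ) (B Y U : V → Finset V)
    (hR : ∀ a P, B a ⊆ P → P ⊆ U a → F o l (B a) ≤ F o l P)
    (hBY : ∀ a, B a ⊆ Y a) (hYU : ∀ a, Y a ⊆ U a) (y : V) :
    F o l (er o B y) ≤ F o l (er o Y y) := by
  have h := F_inter_le o l B U hR (fun a => (hBY a).trans (hYU a)) (inn o y) (er o Y y)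
    (fun x hx b hb => hYU x (mem_er.1 hb x hx))
  have e : (er o Y y).filter (fun b => ∀ x ∈ inn o y, b ∈ B x) = er o B y := by
    ext b
    simp only [mem_filter, mem_er]
    constructor
    · exact fun h => h.2
    · exact fun h => ⟨fun x hx => hBY x (h x hx), h⟩
  rwa [e] at h

theorem key (o : V → Finset V) : ∀ (n : ℕ) (B U : V → Finset V) (l : ℚ),
    (∑ a, (U a \ B a).card = n) → (∀ a, B a ⊆ U a) →
    (∀ a P, B a ⊆ P → P ⊆ U a → F o l (B a) ≤ F o l P) →
    (∀ Y : V → Finset V, (∀ a, B a ⊆ Y a) → (∀ a, Y a ⊆ U a) →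
      ∑ a, ((U a).card : ℚ) - ∑ a, ((Y a).card : ℚ)
        ≤ ∑ a, ((er o U a).card : ℚ) - ∑ a, ((er o Y a).card : ℚ)) →
    ∑ a, F o l (U a) - ∑ a, F o l (B a)
      ≤ ∑ a, F o l (er o U a) - ∑ a, F o l (er o B a) := by
  intro n
  induction n using Nat.strong_induction_on with
  | _ n ih =>
  intro B U l hn hBU hR hC
  by_cases hall : ∀ a, U a = B a
  · have : U = B := funext hall
    subst this
    simp
  push Not at hall
  obtain ⟨a1, ha1⟩ := hall
  -- candidates
  set cand : Finset (V × Finset V) :=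
    univ.filter (fun p => B p.1 ⊆ p.2 ∧ p.2 ⊆ U p.1 ∧ B p.1 ≠ p.2) with hcand
  have hne : cand.Nonempty := ⟨(a1, U a1), by simp [hcand, hBU a1, Ne.symm ha1]⟩
  obtain ⟨⟨a0, P0⟩, hmem, hmin⟩ := exists_min_image cand
    (fun p => (((cl o p.2).card : ℚ) - (cl o (B p.1)).card) / ((p.2.card : ℚ) - (B p.1).card)) hne
  simp only [hcand, mem_filter, mem_univ, true_and] at hmem
  obtain ⟨h0a, h0b, h0c⟩ := hmem
  set l' : ℚ := (((cl o P0).card : ℚ) - (cl o (B a0)).card) / ((P0.card : ℚ) - (B a0).card)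
    with hl'
  have hpos : ∀ a P, B a ⊆ P → B a ≠ P → (0 : ℚ) < (P.card : ℚ) - (B a).card := by
    intro a P h1 h2
    have := card_lt_card (Finset.ssubset_iff_subset_ne.2 ⟨h1, h2⟩)
    have h3 : ((B a).card : ℚ) < (P.card : ℚ) := by exact_mod_cast this
    linarith
  have hR' : ∀ a P, B a ⊆ P → P ⊆ U a → F o l' (B a) ≤ F o l' P := by
    intro a P h1 h2
    by_cases h3 : B a = P
    · rw [h3]
    have h4 := hmin (a, P) (by simp [hcand, h1, h2, h3])
    have h5 := hpos a P h1 h3
    have h6 : l' * ((P.card : ℚ) - (B a).card) ≤ ((cl o P).card : ℚ) - (cl o (B a)).card := by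
      have h7 : l' ≤ (((cl o P).card : ℚ) - (cl o (B a)).card) / ((P.card : ℚ) - (B a).card) := h4
      exact (le_div_iff₀ h5).1 h7
    unfold F
    linarith
  have heq : F o l' P0 = F o l' (B a0) := by
    have h5 := hpos a0 P0 h0a h0c
    have h6 : l' * ((P0.card : ℚ) - (B a0).card) = ((cl o P0).card : ℚ) - (cl o (B a0)).card := by
      rw [hl']
      exact div_mul_cancel₀ _ h5.ne'
    unfold F
    linarith
  have hll : l ≤ l' := by
    have h5 := hpos a0 P0 h0a h0c
    have h6 := hR a0 P0 h0a h0b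
    unfold F at h6
    rw [hl', le_div_iff₀ h5]
    linarith
  -- the new family
  set Y : V → Finset V := Function.update B a0 P0 with hY
  have hBY : ∀ a, B a ⊆ Y a := by
    intro a
    by_cases h : a = a0
    · subst h; simp [hY, h0a]
    · simp [hY, Function.update_of_ne h]
  have hYU : ∀ a, Y a ⊆ U a := by
    intro a
    by_cases h : a = a0
    · subst h; simp [hY, h0b]
    · simp [hY, Function.update_of_ne h, hBU a]
  have hlt : ∑ a, (U a \ Y a).card < n := by
    rw [← hn]
    apply sum_lt_sum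
    · intro a _
      exact card_le_card (sdiff_subset_sdiff (Subset.refl _) (hBY a))
    · refine ⟨a0, mem_univ _, ?_⟩
      apply card_lt_card
      rw [ssubset_iff_of_subset (sdiff_subset_sdiff (Subset.refl _) (hBY a0))]
      obtain ⟨x, hx, hx2⟩ := exists_of_ssubset (Finset.ssubset_iff_subset_ne.2 ⟨h0a, h0c⟩)
      refine ⟨x, mem_sdiff.2 ⟨h0b hx, hx2⟩, ?_⟩
      simp [hY, hx]
  have hFY : ∀ a, F o l' (Y a) = F o l' (B a) := by
    intro a
    by_cases h : a = a0
    · subst h; simp [hY, heq]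
    · simp [hY, Function.update_of_ne h]
  have hI := ih _ hlt Y U l' rfl hYU
    (fun a P h1 h2 => by
      rw [hFY a]
      exact hR' a P ((hBY a).trans h1) h2)
    (fun Y' h1 h2 => hC Y' (fun a => (hBY a).trans (h1 a)) h2)
  have hE : ∑ a, F o l' (er o B a) ≤ ∑ a, F o l' (er o Y a) :=
    sum_le_sum (fun a _ => F_er_le o l' B Y U hR' hBY hYU a)
  have hS : ∑ a, F o l' (Y a) = ∑ a, F o l' (B a) := sum_congr rfl (fun a _ => hFY a)
  have hCB := hC B (fun a => Subset.refl _) hBU
  have conv : ∀ S : V → Finset V, ∑ a, F o l (S a)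
      = ∑ a, F o l' (S a) + (l' - l) * ∑ a, ((S a).card : ℚ) := by
    intro S
    rw [mul_sum, ← sum_add_distrib]
    apply sum_congr rfl
    intro a _
    unfold F
    ring
  rw [conv U, conv B, conv (er o U), conv (er o B)]
  have h7 : (l' - l) * (∑ a, ((U a).card : ℚ) - ∑ a, ((B a).card : ℚ))
      ≤ (l' - l) * (∑ a, ((er o U a).card : ℚ) - ∑ a, ((er o B a).card : ℚ)) :=
    mul_le_mul_of_nonneg_left hCB (by linarith)
  rw [hS] at hI
  linarith

end Vale.Agent.P038.H459
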