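import Vale.Agent.P038.H459.Gap

/-!
P038: Seymour's second neighbourhood conjecture.  Assembly (outer / inner minimum cuts,
notes 22253, 22278, 22414, 22494, 22781).
-/

namespace Vale.Agent.P038.H459

open Finset

variable {V : Type*} [Fintype V] [DecidableEq V]

/-- oriented: no loops, no 2-cycles -/
def Ori (o : V → Finset V) : Prop := ∀ u v, v ∈ o u → u ∉ o v

/-- column of a family of rows -/
def col (S : V → Finset V) (b : V) : Finset V := univ.filter (fun a => b ∈ S a)

theorem mem_col {S : V → Finset V} {a b : V} : a ∈ col S b ↔ b ∈ S a := by simp [col]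

theorem sum_col (S : V → Finset V) : ∑ a, ((S a).card : ℚ) = ∑ b, ((col S b).card : ℚ) := by
  have h : ∑ a, (S a).card = ∑ b, (col S b).card := by
    have h1 : ∀ a, (S a).card = ∑ b, if b ∈ S a then 1 else 0 := by
      intro a; simp
    have h2 : ∀ b, (col S b).card = ∑ a, if b ∈ S a then 1 else 0 := by
      intro b; simp [col]
    rw [sum_congr rfl (fun a _ => h1 a), sum_congr rfl (fun b _ => h2 b), sum_comm]
  exact_mod_cast h

/-- outer pairs -/
def Outer (o : V → Finset V) (B C : V → Finset V) : Prop :=
  (∀ a, cl o {a} ⊆ B a) ∧ (∀ a, cl o {a} ⊆ C a) ∧ ∀ a b, b ∈ B a → a ∈ C b → a = b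

/-- cost of a pair -/
def cost (o : V → Finset V) (B C : V → Finset V) : ℚ := ∑ a, F o 1 (B a) + ∑ a, F o 1 (C a)

theorem mem_cl_single {o : V → Finset V} {a y : V} : y ∈ cl o {a} ↔ a ∈ inn o y := by
  rw [mem_cl]; simp

theorem inn_antisymm {o : V → Finset V} (ho : Ori o) {a b : V} (h1 : a ∈ inn o b)
    (h2 : b ∈ inn o a) : a = b := by
  simp only [inn, mem_filter, mem_univ, true_and] at h1 h2
  rcases h1 with h1 | h1
  · exact h1
  rcases h2 with h2 | h2
  · exact h2.symm
  exact absurd h2 (ho _ _ h1)

theorem self_inn (o : V → Finset V) (a : V) : a ∈ inn o a := by simp [inn]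

theorem inner_feasible {o : V → Finset V} {B C : V → Finset V} (h : Outer o B C) {a b : V}
    (h1 : b ∈ cl o (er o B a)) (h2 : a ∈ cl o (er o C b)) : a = b := by
  obtain ⟨hB, hC, hBC⟩ := h
  obtain ⟨x, hx, hxb⟩ := mem_cl.1 h1
  obtain ⟨y, hy, hya⟩ := mem_cl.1 h2
  rw [mem_er] at hx hy
  have e1 : x ∈ B y := hx y hya
  have e2 : y ∈ C x := hy x hxb
  have exy : y = x := hBC y x e1 e2
  subst exy
  have e3 : a = y := hBC a y (hx a (self_inn o a)) (hC y (mem_cl_single.2 hya))
  have e4 : y = b := hBC y b (hB y (mem_cl_single.2 hxb)) (hy b (self_inn o b))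
  rw [e3, e4]

theorem self_mem_er {o : V → Finset V} {B : V → Finset V} (hB : ∀ a, cl o {a} ⊆ B a) (a : V) :
    a ∈ er o B a := by
  rw [mem_er]
  intro x hx
  exact hB x (mem_cl_single.2 hx)

theorem outer_cl {o : V → Finset V} {B C : V → Finset V} (h : Outer o B C) :
    Outer o (fun a => cl o (er o B a)) (fun a => cl o (er o C a)) := by
  refine ⟨fun a => cl_mono ?_, fun a => cl_mono ?_, fun a b h1 h2 => inner_feasible h h1 h2⟩
  · rw [singleton_subset_iff]; exact self_mem_er h.1 a
  · rw [singleton_subset_iff]; exact self_mem_er h.2.1 a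

/-- the upper family -/
def up (C : V → Finset V) (a : V) : Finset V := univ.filter (fun b => b = a ∨ a ∉ C b)

theorem mem_up {C : V → Finset V} {a b : V} : b ∈ up C a ↔ b = a ∨ a ∉ C b := by simp [up]

theorem sub_up {o : V → Finset V} {B C : V → Finset V} (h : Outer o B C) (a : V) :
    B a ⊆ up C a := by
  intro b hb
  rw [mem_up]
  by_cases hc : a ∈ C b
  · exact Or.inl (h.2.2 a b hb hc).symm
  · exact Or.inr hc

theorem sum_update (f : Finset V → ℚ) (B : V → Finset V) (a : V) (P : Finset V) :
    ∑ x, f (Function.update B a P x) = ∑ x, f (B x) + (f P - f (B a)) := by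
  have h : ∑ x, (f (Function.update B a P x) - f (B x)) = f P - f (B a) := by
    rw [sum_eq_single a]
    · simp
    · intro b _ hb; simp [Function.update_of_ne hb]
    · intro h; exact absurd (mem_univ _) h
  rw [sum_sub_distrib] at h
  linarith

theorem row_opt {o : V → Finset V} {B C : V → Finset V} (h : Outer o B C)
    (hmin : ∀ B' C', Outer o B' C' → cost o B C ≤ cost o B' C') (a : V) (P : Finset V)
    (h1 : B a ⊆ P) (h2 : P ⊆ up C a) : F o 1 (B a) ≤ F o 1 P := by
  have hf : Outer o (Function.update B a P) C := by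
    refine ⟨?_, h.2.1, ?_⟩
    · intro x
      by_cases hx : x = a
      · subst hx; simpa using (h.1 x).trans h1
      · simpa [Function.update_of_ne hx] using h.1 x
    · intro x b hb hc
      by_cases hx : x = a
      · subst hx
        rw [Function.update_self] at hb
        rcases mem_up.1 (h2 hb) with h3 | h3
        · exact h3.symm
        · exact absurd hc h3
      · rw [Function.update_of_ne hx] at hb
        exact h.2.2 x b hb hc
  have := hmin _ _ hf
  unfold cost at this
  rw [sum_update (F o 1)] at this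
  linarith

theorem col_opt {o : V → Finset V} {B C : V → Finset V} (h : Outer o B C)
    (hmin : ∀ B' C', Outer o B' C' → cost o B C ≤ cost o B' C') (b : V) (P : Finset V)
    (h1 : C b ⊆ P) (h2 : ∀ a ∈ P, b ∈ B a → a = b) : F o 1 (C b) ≤ F o 1 P := by
  have hf : Outer o B (Function.update C b P) := by
    refine ⟨h.1, ?_, ?_⟩
    · intro x
      by_cases hx : x = b
      · subst hx; simpa using (h.2.1 x).trans h1
      · simpa [Function.update_of_ne hx] using h.2.1 x
    · intro a x ha hc
      by_cases hx : x = b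
      · subst hx
        rw [Function.update_self] at hc
        exact h2 a hc ha
      · rw [Function.update_of_ne hx] at hc
        exact h.2.2 a x ha hc
  have := hmin _ _ hf
  unfold cost at this
  rw [sum_update (F o 1)] at this
  linarith

theorem col_cond {o : V → Finset V} {B C : V → Finset V} (h : Outer o B C)
    (hmin : ∀ B' C', Outer o B' C' → cost o B C ≤ cost o B' C') (Y : V → Finset V)
    (hBY : ∀ a, B a ⊆ Y a) (hYU : ∀ a, Y a ⊆ up C a) :
    ∑ a, ((up C a).card : ℚ) - ∑ a, ((Y a).card : ℚ)
      ≤ ∑ a, ((er o (up C) a).card : ℚ) - ∑ a, ((er o Y a).card : ℚ) := by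
  rw [sum_col (up C), sum_col Y, sum_col (er o (up C)), sum_col (er o Y), ← sum_sub_distrib,
    ← sum_sub_distrib]
  apply sum_le_sum
  intro b _
  set T := col (up C) b \ col Y b with hT
  have hYU' : col Y b ⊆ col (up C) b := by
    intro a ha
    rw [mem_col] at ha ⊢
    exact hYU a ha
  have hEE : col (er o Y) b ⊆ col (er o (up C)) b := by
    intro a ha
    rw [mem_col] at ha ⊢
    exact er_mono hYU a ha
  have hTC : Disjoint (C b) T := by
    rw [disjoint_left]
    intro a ha hb
    rw [hT, mem_sdiff, mem_col, mem_col, mem_up] at hb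
    rcases hb.1 with h3 | h3
    · subst h3
      exact hb.2 (hBY _ (h.1 _ (mem_cl_single.2 (self_inn o _))))
    · exact h3 ha
  have hopt : F o 1 (C b) ≤ F o 1 (C b ∪ T) := by
    apply col_opt h hmin b _ subset_union_left
    intro a ha hb
    rcases mem_union.1 ha with h3 | h3
    · exact h.2.2 a b hb h3
    · rw [hT, mem_sdiff, mem_col, mem_col] at h3
      exact absurd (hBY a hb) h3.2
  have hsub : cl o (C b ∪ T) \ cl o (C b) ⊆ col (er o (up C)) b \ col (er o Y) b := by
    intro y hy
    rw [mem_sdiff] at hy
    obtain ⟨hy1, hy2⟩ := hy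
    rw [mem_cl] at hy1 hy2
    push Not at hy2
    obtain ⟨x, hx, hxy⟩ := hy1
    rw [mem_sdiff, mem_col, mem_col, mem_er, mem_er]
    constructor
    · intro x' hx'
      rw [mem_up]
      right
      intro hc
      exact hy2 x' hc hx'
    · intro hcon
      rcases mem_union.1 hx with h3 | h3
      · exact hy2 x h3 hxy
      · rw [hT, mem_sdiff, mem_col, mem_col] at h3
        exact h3.2 (hcon x hxy)
  have c1 : T.card + (col Y b).card = (col (up C) b).card := card_sdiff_add_card_eq_card hYU'
  have c2 := card_sdiff_add_card_eq_card hEE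
  have c3 : (C b ∪ T).card = (C b).card + T.card := card_union_of_disjoint hTC
  have c4 : (cl o (C b ∪ T) \ cl o (C b)).card + (cl o (C b)).card = (cl o (C b ∪ T)).card :=
    card_sdiff_add_card_eq_card (cl_mono subset_union_left)
  have c5 := card_le_card hsub
  have c6 : (cl o (C b)).card + T.card ≤ (cl o (C b ∪ T)).card := by
    unfold F at hopt
    rw [c3] at hopt
    push_cast at hopt
    have : ((cl o (C b)).card : ℚ) + T.card ≤ (cl o (C b ∪ T)).card := by linarith
    exact_mod_cast this
  have c7 : (col (up C) b).card + (col (er o Y) b).card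
      ≤ (col (er o (up C)) b).card + (col Y b).card := by omega
  have c8 : ((col (up C) b).card : ℚ) + (col (er o Y) b).card
      ≤ (col (er o (up C)) b).card + (col Y b).card := by exact_mod_cast c7
  linarith

theorem claimA {o : V → Finset V} {B C : V → Finset V} (h : Outer o B C) :
    ∑ a, ((up C a).card : ℚ) - ∑ a, ((er o (up C) a).card : ℚ) ≤ ∑ b, F o 1 (C b) := by
  rw [sum_col (up C), sum_col (er o (up C)), ← sum_sub_distrib]
  apply sum_le_sum
  intro b _
  have hbC : b ∈ C b := h.2.1 b (mem_cl_single.2 (self_inn o b))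
  -- upper bound for the column of up C
  have u1 : (col (up C) b).card ≤ (Fintype.card V - (C b).card) + 1 := by
    have : col (up C) b ⊆ (C b)ᶜ ∪ {b} := by
      intro a ha
      rw [mem_col, mem_up] at ha
      rw [mem_union, mem_compl, mem_singleton]
      tauto
    refine (card_le_card this).trans ((card_union_le _ _).trans ?_)
    rw [card_compl, card_singleton]
  -- lower bound for the column of er (up C)
  have u2 : (Fintype.card V - (cl o (C b)).card) + 1 ≤ (col (er o (up C)) b).card := by
    have hd : Disjoint ((cl o (C b))ᶜ) {b} := by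
      rw [disjoint_singleton_right, mem_compl, not_not]
      exact sub_cl o _ hbC
    rw [← card_compl, ← card_singleton b, ← card_union_of_disjoint hd]
    apply card_le_card
    intro y hy
    rw [mem_union, mem_compl, mem_singleton] at hy
    rw [mem_col, mem_er]
    intro x hx
    rw [mem_up]
    rcases hy with hy | hy
    · right
      intro hc
      exact hy (mem_cl.2 ⟨x, hc, hx⟩)
    · subst hy
      by_cases hc : x ∈ C y
      · left
        exact (h.2.2 x y (h.1 x (mem_cl_single.2 hx)) hc).symm
      · exact Or.inr hc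
  have u3 : (C b).card ≤ Fintype.card V := card_le_univ _
  have u4 : (cl o (C b)).card ≤ Fintype.card V := card_le_univ _
  have u5 : (col (up C) b).card + (C b).card ≤ (col (er o (up C)) b).card + (cl o (C b)).card := by
    omega
  have u6 : ((col (up C) b).card : ℚ) + (C b).card
      ≤ (col (er o (up C)) b).card + (cl o (C b)).card := by exact_mod_cast u5
  unfold F
  linarith

theorem claimB {o : V → Finset V} {B C : V → Finset V} (h : Outer o B C) :
    ∑ b, F o 1 (er o C b)
      ≤ ∑ a, ((cl o (up C a)).card : ℚ) - ∑ a, ((cl o (er o (up C) a)).card : ℚ) := by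
  rw [sum_col (fun a => cl o (up C a)), sum_col (fun a => cl o (er o (up C) a)),
    ← sum_sub_distrib]
  apply sum_le_sum
  intro b _
  set P := col (fun a => cl o (up C a)) b with hP
  set Q := col (fun a => cl o (er o (up C) a)) b with hQ
  have hbP : b ∈ P := by
    rw [hP, mem_col]
    exact sub_cl o _ (mem_up.2 (Or.inl rfl))
  have u1 : ((er o C b)ᶜ).card + 1 ≤ P.card := by
    have hd : Disjoint ((er o C b)ᶜ) {b} := by
      rw [disjoint_singleton_right, mem_compl, not_not]
      exact self_mem_er h.2.1 b
    rw [← card_singleton b, ← card_union_of_disjoint hd]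
    apply card_le_card
    intro a ha
    rw [mem_union, mem_singleton, mem_compl, mem_er] at ha
    rcases ha with ha | ha
    · push Not at ha
      obtain ⟨b', hb', hab⟩ := ha
      rw [hP, mem_col]
      exact mem_cl.2 ⟨b', mem_up.2 (Or.inr hab), hb'⟩
    · rw [ha]; exact hbP
  have u2 : (cl o (er o C b)).card + Q.card ≤ Fintype.card V + 1 := by
    have hd : Disjoint (cl o (er o C b)) (Q.erase b) := by
      rw [disjoint_left]
      intro a ha haQ
      rw [mem_erase] at haQ
      obtain ⟨hab, haQ⟩ := haQ
      rw [hQ, mem_col, mem_cl] at haQ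
      obtain ⟨z, hz, hzb⟩ := haQ
      obtain ⟨y, hy, hya⟩ := mem_cl.1 ha
      rw [mem_er] at hz hy
      have e1 : y ∈ C z := hy z hzb
      have e2 := mem_up.1 (hz y hya)
      have ezy : z = y := by
        rcases e2 with e2 | e2
        · exact e2
        · exact absurd e1 e2
      subst ezy
      have e3 : z = a := by
        rcases mem_up.1 (hz a (self_inn o a)) with e3 | e3
        · exact e3
        · exact absurd (h.2.1 z (mem_cl_single.2 hya)) e3
      have e4 : z = b := h.2.2 z b (h.1 z (mem_cl_single.2 hzb)) (hy b (self_inn o b))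
      exact hab (e3.symm.trans e4)
    have h1 : (cl o (er o C b) ∪ Q.erase b).card ≤ Fintype.card V := card_le_univ _
    rw [card_union_of_disjoint hd] at h1
    have h2 : Q.card - 1 ≤ (Q.erase b).card := pred_card_le_card_erase
    omega
  have u3 : ((er o C b)ᶜ).card + (er o C b).card = Fintype.card V := by
    rw [add_comm]; exact card_add_card_compl _
  have u5 : (cl o (er o C b)).card + Q.card ≤ P.card + (er o C b).card := by omega
  have u6 : ((cl o (er o C b)).card : ℚ) + Q.card ≤ P.card + (er o C b).card := by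
    exact_mod_cast u5
  unfold F
  linarith

/-- The inner pair built from an optimal outer pair is not more expensive. -/
theorem inner_le {o : V → Finset V} {B C : V → Finset V} (h : Outer o B C)
    (hmin : ∀ B' C', Outer o B' C' → cost o B C ≤ cost o B' C') :
    cost o (er o B) (er o C) ≤ cost o B C := by
  have hk := key o _ B (up C) 1 rfl (fun a => sub_up h a)
    (fun a P h1 h2 => row_opt h hmin a P h1 h2) (fun Y h1 h2 => col_cond h hmin Y h1 h2)
  have hA := claimA h
  have hB := claimB h
  have conv : ∀ S : V → Finset V, ∑ a, F o 1 (S a)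
      = ∑ a, ((cl o (S a)).card : ℚ) - ∑ a, ((S a).card : ℚ) := by
    intro S
    rw [← sum_sub_distrib]
    apply sum_congr rfl
    intro a _
    unfold F
    ring
  rw [conv (up C), conv (er o (up C))] at hk
  unfold cost
  linarith

/-- No counterexample: induction on the number of arcs. -/
theorem no_CE [Nonempty V] : ∀ (n : ℕ) (o : V → Finset V), ∑ v, (o v).card = n → Ori o →
    ¬ CE o := by
  intro n
  induction n using Nat.strong_induction_on with
  | _ n ih =>
  intro o hn ho hce
  have hG : ∀ X : Finset V, cl o X ≠ X →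
      (cl o (cl o X)).card + X.card < 2 * (cl o X).card := by
    intro X hX
    refine gapG o hce ?_ X hX
    intro o' hsub hlt hce'
    rw [hn] at hlt
    exact ih _ hlt o' rfl (fun u v h1 h2 => ho u v (hsub u h1) (hsub v h2)) hce'
  have hG' : ∀ X : Finset V, F o 1 (cl o X) ≤ F o 1 X := by
    intro X
    by_cases hX : cl o X = X
    · rw [hX]
    · have h1 := hG X hX
      have h2 : ((cl o (cl o X)).card : ℚ) + X.card < 2 * (cl o X).card := by exact_mod_cast h1
      unfold F
      linarith
  have hG'' : ∀ X : Finset V, F o 1 X ≤ F o 1 (cl o X) → cl o X = X := by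
    intro X h
    by_contra hX
    have h1 := hG X hX
    have h2 : ((cl o (cl o X)).card : ℚ) + X.card < 2 * (cl o X).card := by exact_mod_cast h1
    unfold F at h
    linarith
  -- outer minimiser
  classical
  obtain ⟨⟨B, C⟩, hBC, hmin⟩ := exists_min_image
    (univ.filter (fun p : (V → Finset V) × (V → Finset V) => Outer o p.1 p.2))
    (fun p => cost o p.1 p.2)
    ⟨(fun a => cl o {a}, fun a => cl o {a}), by
      rw [mem_filter]
      refine ⟨mem_univ _, fun a => Subset.refl _, fun a => Subset.refl _, ?_⟩
      intro a b h1 h2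
      exact inn_antisymm ho (mem_cl_single.1 h1) (mem_cl_single.1 h2)⟩
  rw [mem_filter] at hBC
  have hO : Outer o B C := hBC.2
  have hmin' : ∀ B' C', Outer o B' C' → cost o B C ≤ cost o B' C' := by
    intro B' C' h'
    exact hmin (B', C') (mem_filter.2 ⟨mem_univ _, h'⟩)
  have h1 := inner_le hO hmin'
  have h2 := hmin' _ _ (outer_cl hO)
  -- all rows are closed
  have h3 : ∑ a, F o 1 (er o B a) + ∑ a, F o 1 (er o C a)
      ≤ ∑ a, F o 1 (cl o (er o B a)) + ∑ a, F o 1 (cl o (er o C a)) := h1.trans h2
  have hX : ∀ a, cl o (er o B a) = er o B a := by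
    have hs : ∑ a, F o 1 (cl o (er o C a)) ≤ ∑ a, F o 1 (er o C a) :=
      sum_le_sum (fun a _ => hG' _)
    have hs2 : ∑ a, F o 1 (er o B a) ≤ ∑ a, F o 1 (cl o (er o B a)) := by linarith
    have hs3 : ∑ a, F o 1 (cl o (er o B a)) = ∑ a, F o 1 (er o B a) :=
      le_antisymm (sum_le_sum (fun a _ => hG' _)) hs2
    have hs4 := (sum_eq_sum_iff_of_le (fun a _ => hG' (er o B a))).1 hs3
    intro a
    exact hG'' _ (hs4 a (mem_univ _)).ge
  have hY : ∀ a, cl o (er o C a) = er o C a := by
    have hs : ∑ a, F o 1 (cl o (er o B a)) ≤ ∑ a, F o 1 (er o B a) :=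
      sum_le_sum (fun a _ => hG' _)
    have hs2 : ∑ a, F o 1 (er o C a) ≤ ∑ a, F o 1 (cl o (er o C a)) := by linarith
    have hs3 : ∑ a, F o 1 (cl o (er o C a)) = ∑ a, F o 1 (er o C a) :=
      le_antisymm (sum_le_sum (fun a _ => hG' _)) hs2
    have hs4 := (sum_eq_sum_iff_of_le (fun a _ => hG' (er o C a))).1 hs3
    intro a
    exact hG'' _ (hs4 a (mem_univ _)).ge
  -- a minimal nonempty closed set
  obtain ⟨S, hS, hSmin⟩ := exists_min_image
    (univ.filter (fun S : Finset V => S.Nonempty ∧ cl o S = S)) (fun S => S.card)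
    ⟨univ, by
      rw [mem_filter]
      exact ⟨mem_univ _, univ_nonempty, Subset.antisymm (subset_univ _) (sub_cl o _)⟩⟩
  rw [mem_filter] at hS
  obtain ⟨-, ⟨a, haS⟩, hScl⟩ := hS
  have hpos : 0 < (o a).card := lt_of_le_of_lt (Nat.zero_le _) (hce a)
  obtain ⟨b, hb⟩ := card_pos.1 hpos
  have hab : a ∈ inn o b := by simp [inn, hb]
  have hbS : b ∈ S := by
    rw [← hScl]; exact mem_cl.2 ⟨a, haS, hab⟩
  have hbX : b ∈ er o B a := by
    rw [← hX a]
    exact mem_cl.2 ⟨a, self_mem_er hO.1 a, hab⟩
  have haY : a ∉ er o C b := by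
    intro haY
    have h4 : a = b := inner_feasible hO (sub_cl o _ hbX) (sub_cl o _ haY)
    subst h4
    exact ho a a hb hb
  have hcl : cl o (er o C b ∩ S) = er o C b ∩ S := by
    apply Subset.antisymm
    · apply subset_inter
      · exact (cl_mono inter_subset_left).trans (hY b).subset
      · exact (cl_mono inter_subset_right).trans hScl.subset
    · exact sub_cl o _
  have h5 := hSmin (er o C b ∩ S) (mem_filter.2 ⟨mem_univ _,
    ⟨b, mem_inter.2 ⟨self_mem_er hO.2.1 b, hbS⟩⟩, hcl⟩)
  have h6 : (er o C b ∩ S).card < S.card := by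
    apply card_lt_card
    rw [ssubset_iff_of_subset inter_subset_right]
    exact ⟨a, haS, fun h => haY (mem_inter.1 h).1⟩
  exact absurd h5 (not_le.2 h6)

/-- **Seymour's second neighbourhood conjecture.** -/
theorem seymour [Nonempty V] (o : V → Finset V) (ho : Ori o) :
    ∃ v, (o v).card ≤ (N2 o v).card := by
  by_contra h
  push Not at h
  exact no_CE _ o rfl ho h

end Vale.Agent.P038.H459

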